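import Mathlib
import Vale.Agent.P271.Deg.Num

/-!
# P271 / Uni / Num : the lower bound for the sum of the jumps of the order filtration
(helper972, row B5-UNI)
-/

namespace Vale.Agent.P271.Uni

open Filter Topology

/-- **Lower bound for the sum of the orders.** -/
theorem os_lower {n ell m1 : ℕ} (hn : 1 ≤ n) (hell : 1 ≤ ell) (hm1 : 1 ≤ m1) (N os : ℕ → ℝ)
    (hN : Tendsto (fun T : ℕ => N T / ((m1 : ℝ) * T) ^ n) atTop
      (𝓝 ((ell : ℝ) / (n.factorial : ℝ))))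
    (hcount : ∀ T K : ℕ, (K : ℝ) * N T ≤ os T + ((n + K).choose (n + 1) : ℝ)) :
    ∀ ε : ℝ, 0 < ε → ∃ T₀ : ℕ, ∀ T ≥ T₀,
      ((n : ℝ) / (n + 1) * (ell : ℝ) ^ ((1 : ℝ) / n) - ε) * ((m1 : ℝ) * T * N T) ≤ os T := by
  intro ε hε
  have hn0 : (0 : ℝ) < n := by exact_mod_cast hn
  have hell0 : (0 : ℝ) < ell := by exact_mod_cast hell
  have hm0 : (0 : ℝ) < m1 := by exact_mod_cast hm1
  set lam : ℝ := (ell : ℝ) ^ ((1 : ℝ) / n) with hlam
  have hlam0 : 0 < lam := Real.rpow_pos_of_pos hell0 _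
  have hlamn : lam ^ n = ell := by
    rw [hlam, ← Real.rpow_natCast, ← Real.rpow_mul hell0.le, one_div, inv_mul_cancel₀ hn0.ne',
      Real.rpow_one]
  have hfac : (0 : ℝ) < (n.factorial : ℝ) := by exact_mod_cast n.factorial_pos
  have hfac1 : (((n + 1).factorial : ℕ) : ℝ) = ((n : ℝ) + 1) * (n.factorial : ℝ) := by
    rw [Nat.factorial_succ]; push_cast; ring
  -- the level
  have hx : Tendsto (fun T : ℕ => (m1 : ℝ) * T) atTop atTop :=
    tendsto_natCast_atTop_atTop.const_mul_atTop hm0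
  have hK : Tendsto (fun T : ℕ => ((⌊lam * ((m1 : ℝ) * T)⌋₊ : ℕ) : ℝ) / ((m1 : ℝ) * T)) atTop
      (𝓝 lam) := (tendsto_nat_floor_mul_div_atTop hlam0.le).comp hx
  have hinv : Tendsto (fun T : ℕ => (n : ℝ) / ((m1 : ℝ) * T)) atTop (𝓝 0) :=
    tendsto_const_nhds.div_atTop hx
  -- the two sides
  have hR : Tendsto (fun T : ℕ => ((⌊lam * ((m1 : ℝ) * T)⌋₊ : ℕ) : ℝ) / ((m1 : ℝ) * T) *
      (N T / ((m1 : ℝ) * T) ^ n) - ((n : ℝ) / ((m1 : ℝ) * T) +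
        ((⌊lam * ((m1 : ℝ) * T)⌋₊ : ℕ) : ℝ) / ((m1 : ℝ) * T)) ^ (n + 1) /
          (((n + 1).factorial : ℕ) : ℝ)) atTop
      (𝓝 (lam * ((ell : ℝ) / (n.factorial : ℝ)) - (0 + lam) ^ (n + 1) /
        (((n + 1).factorial : ℕ) : ℝ))) :=
    (hK.mul hN).sub (((hinv.add hK).pow (n + 1)).div_const _)
  have hL : Tendsto (fun T : ℕ => ((n : ℝ) / (n + 1) * lam - ε) * (N T / ((m1 : ℝ) * T) ^ n))
      atTop (𝓝 (((n : ℝ) / (n + 1) * lam - ε) * ((ell : ℝ) / (n.factorial : ℝ)))) :=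
    hN.const_mul _
  have hlt : ((n : ℝ) / (n + 1) * lam - ε) * ((ell : ℝ) / (n.factorial : ℝ)) <
      lam * ((ell : ℝ) / (n.factorial : ℝ)) - (0 + lam) ^ (n + 1) /
        (((n + 1).factorial : ℕ) : ℝ) := by
    have h1 : lam * ((ell : ℝ) / (n.factorial : ℝ)) - (0 + lam) ^ (n + 1) /
        (((n + 1).factorial : ℕ) : ℝ) = (n : ℝ) / (n + 1) * lam * ((ell : ℝ) / n.factorial) := by
      rw [zero_add, pow_succ, hlamn, hfac1]
      field_simp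
      ring
    rw [h1, sub_mul]
    have : 0 < ε * ((ell : ℝ) / (n.factorial : ℝ)) := by positivity
    linarith
  obtain ⟨T₀, hT₀⟩ := eventually_atTop.1 ((hL.eventually_lt hR hlt).and (eventually_ge_atTop 1))
  refine ⟨T₀, fun T hT => ?_⟩
  obtain ⟨h1, h2⟩ := hT₀ T hT
  have hT0 : (0 : ℝ) < T := by exact_mod_cast h2
  set x : ℝ := (m1 : ℝ) * T with hxdef
  have hx0 : 0 < x := mul_pos hm0 hT0
  set K : ℕ := ⌊lam * x⌋₊ with hKdef
  have h3 := hcount T K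
  have h4 : (((n + K).choose (n + 1) : ℕ) : ℝ) ≤ ((n : ℝ) + K) ^ (n + 1) /
      (((n + 1).factorial : ℕ) : ℝ) := by
    have := Nat.choose_le_pow_div (α := ℝ) (n + 1) (n + K)
    push_cast at this ⊢
    exact this
  have h5 : ((n : ℝ) / (n + 1) * lam - ε) * (x * N T) =
      x ^ (n + 1) * (((n : ℝ) / (n + 1) * lam - ε) * (N T / x ^ n)) := by
    rw [pow_succ]
    field_simp
  have h6 : x ^ (n + 1) * ((K : ℝ) / x * (N T / x ^ n) - ((n : ℝ) / x + (K : ℝ) / x) ^ (n + 1) /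
      (((n + 1).factorial : ℕ) : ℝ)) = K * N T - ((n : ℝ) + K) ^ (n + 1) /
      (((n + 1).factorial : ℕ) : ℝ) := by
    have hxn : x ^ (n + 1) ≠ 0 := (pow_pos hx0 _).ne'
    rw [← add_div, div_pow, mul_sub]
    congr 1
    · rw [pow_succ]
      field_simp
    · field_simp
  rw [h5]
  have h7 := mul_le_mul_of_nonneg_left h1.le (pow_pos hx0 (n + 1)).le
  rw [h6] at h7
  linarith

/-- The same with the two sided bound for the Hilbert function. -/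
theorem os_lower' {n ell m1 : ℕ} (hn : 1 ≤ n) (hell : 1 ≤ ell) (hm1 : 1 ≤ m1) (N : ℕ → ℕ)
    (os : ℕ → ℝ) (hN : Deg.TwoSided n (ell * m1 ^ n) N)
    (hcount : ∀ T K : ℕ, (K : ℝ) * N T ≤ os T + ((n + K).choose (n + 1) : ℝ)) :
    ∀ ε : ℝ, 0 < ε → ∃ T₀ : ℕ, ∀ T ≥ T₀,
      ((n : ℝ) / (n + 1) * (ell : ℝ) ^ ((1 : ℝ) / n) - ε) * ((m1 : ℝ) * T * N T) ≤ os T := by
  have hm0 : (0 : ℝ) < m1 := by exact_mod_cast hm1
  refine os_lower hn hell hm1 (fun T => (N T : ℝ)) os ?_ hcount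
  have h1 := (hN.tendsto).div_const ((m1 : ℝ) ^ n)
  refine (h1.congr' ?_).trans (le_of_eq ?_)
  · filter_upwards with T
    rw [mul_pow, div_div, mul_comm]
  · congr 1
    push_cast
    field_simp

end Vale.Agent.P271.Uni
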