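import Vale.Agent.P271.Uni.Space
import Vale.Agent.P271.Uni.Num
import Vale.Agent.P271.Eq.NoPrime

/-!
# P271 / Uni / Ord : the filtration of `A_m` by the order of vanishing at a point
(helper972, row B5-UNI)
-/

namespace Vale.Agent.P271.Uni

open Module Filter Topology Asymptotics Metric
open Vale.Agent.P271.Filt Vale.Agent.P271.Filt.Wt Vale.Agent.P271.Sch Vale.Agent.P271.H741
open Vale.Agent.P271.Eq
open scoped Vale.Agent.P271.Inst

variable {n : ℕ} {C : GCone n} {φ : C.Pt}

/-- The elements of `A m` of order `≥ k` at `φ`, as a subspace of `A m`. -/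
noncomputable def so (φ : C.Pt) (m k : ℕ) : Submodule ℂ (C.A m) :=
  ((RingHom.ker φ ^ k).restrictScalars ℂ).comap (C.A m).subtype

theorem mem_so {m k : ℕ} {s : C.A m} : s ∈ so φ m k ↔ (s : C.R) ∈ pI φ ^ k := Iff.rfl

theorem so_anti (φ : C.Pt) (m : ℕ) : Antitone (so φ m) := by
  intro k l hkl s hs
  rw [mem_so] at hs ⊢
  exact Ideal.pow_le_pow_right hkl hs

theorem so_zero (φ : C.Pt) (m : ℕ) : so φ m 0 = ⊤ := by
  rw [eq_top_iff]
  intro s _
  rw [mem_so, pow_zero, Ideal.one_eq_top]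
  exact Submodule.mem_top

theorem map_so (m k : ℕ) : (so φ m k).map (C.A m).subtype = ordA φ m k := by
  ext s
  rw [Submodule.mem_map, mem_ordA]
  constructor
  · rintro ⟨v, hv, rfl⟩
    exact ⟨hv, v.2⟩
  · rintro ⟨h1, h2⟩
    exact ⟨⟨s, h2⟩, h1, rfl⟩

theorem finrank_so (m k : ℕ) : finrank ℂ (so φ m k) = finrank ℂ (ordA φ m k) := by
  rw [← map_so]
  exact LinearEquiv.finrank_eq (Submodule.equivMapOfInjective _ (Submodule.injective_subtype _) _)

theorem exists_so_bot (φ : C.Pt) (m : ℕ) [FiniteDimensional ℂ (C.A m)] : ∃ k, so φ m k = ⊥ := by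
  have hfin : Algebra.FiniteType ℂ C.R := C.finiteType
  have hNoeth : IsNoetherianRing C.R := Algebra.FiniteType.isNoetherianRing ℂ C.R
  have hne : (RingHom.ker φ : Ideal C.R) ≠ ⊤ := by
    rw [Ideal.ne_top_iff_one, RingHom.mem_ker, map_one]
    exact one_ne_zero
  have hK := Ideal.iInf_pow_eq_bot_of_isDomain (RingHom.ker φ) hne
  obtain ⟨k, hk⟩ := IsArtinian.monotone_stabilizes (R := ℂ) (M := C.A m)
    ⟨fun k => OrderDual.toDual (so φ m k), fun a b hab => so_anti φ m hab⟩
  refine ⟨k, ?_⟩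
  rw [eq_bot_iff]
  intro s hs
  rw [Submodule.mem_bot]
  apply Subtype.ext
  have h1 : (s : C.R) ∈ (⨅ i : ℕ, (RingHom.ker φ : Ideal C.R) ^ i) := by
    rw [Ideal.mem_iInf]
    intro i
    have h2 : s ∈ so φ m i := by
      rcases le_total i k with h | h
      · exact so_anti φ m h hs
      · have h3 := hk i h
        have h4 : so φ m k = so φ m i := h3
        rw [← h4]
        exact hs
    exact h2
  rw [hK] at h1
  exact h1

/-- The filtration by the order at `φ`. -/
noncomputable def ordF (φ : C.Pt) (m : ℕ) [FiniteDimensional ℂ (C.A m)] : NFil ℂ (C.A m) where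
  s := so φ m
  anti := so_anti φ m
  zero := so_zero φ m
  top := (exists_so_bot φ m).choose
  bot := (exists_so_bot φ m).choose_spec

/-- The weight function `ord_φ` on `A m`. -/
noncomputable def ordW (φ : C.Pt) (m : ℕ) [FiniteDimensional ℂ (C.A m)] : Wt ℂ (C.A m) :=
  (ordF φ m).wt

section fd

variable [∀ m, FiniteDimensional ℂ (C.A m)]

theorem mem_so_iff {m k : ℕ} {s : C.A m} (hs : s ≠ 0) :
    s ∈ so φ m k ↔ k ≤ (ordF φ m).ord s := (ordF φ m).mem_iff hs

theorem ordW_T (m : ℕ) : (ordW φ m).T =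
    ∑ k ∈ Finset.range (ordF φ m).top, (finrank ℂ (so φ m (k + 1)) : ℝ) := (ordF φ m).wt_T

theorem finrank_so_eq_zero {m k : ℕ} (h : (ordF φ m).top ≤ k) : finrank ℂ (so φ m k) = 0 := by
  have h1 : so φ m k ≤ ⊥ := by
    have h2 := so_anti φ m h
    have h3 : so φ m (ordF φ m).top = ⊥ := (ordF φ m).bot
    rwa [h3] at h2
  rw [le_bot_iff.1 h1, finrank_bot]

theorem sum_so_le (m K : ℕ) :
    ∑ k ∈ Finset.range K, (finrank ℂ (so φ m (k + 1)) : ℝ) ≤ (ordW φ m).T := by
  rw [ordW_T]
  rcases le_total K (ordF φ m).top with h | h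
  · exact Finset.sum_le_sum_of_subset_of_nonneg (Finset.range_mono h) fun _ _ _ => by positivity
  · rw [← Finset.sum_subset (Finset.range_mono h)]
    intro k _ hk
    rw [Finset.mem_range, not_lt] at hk
    rw [finrank_so_eq_zero (by omega)]
    simp

/-- Comparison with the sum in the hypothesis of the equality case. -/
theorem sum_ordA_le (m K : ℕ) :
    ((∑ k ∈ Finset.range K, finrank ℂ (ordA φ m (k + 1)) : ℕ) : ℝ) ≤ (ordW φ m).T := by
  refine le_trans (le_of_eq ?_) (sum_so_le m K)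
  push_cast
  exact Finset.sum_congr rfl fun k _ => by rw [finrank_so]

section chart

variable (P : HParam C φ) (c : Chart φ (n + 1))
  (hc : ∀ j, c.t j = P.X j - algebraMap ℂ C.R (φ (P.X j)))

include P hc

omit [∀ m, FiniteDimensional ℂ (C.A m)] in
theorem so_eq_fil (m k : ℕ) : so φ m k = fil (ιs c m) k := by
  ext s
  rw [mem_so]
  constructor
  · intro h
    exact isBigO_slice c (isBigO_of_mem_pow c h)
  · intro h
    exact mem_pow_of_isBigO P c hc (isBigO_full P c hc s.2 h)

omit [∀ m, FiniteDimensional ℂ (C.A m)] P hc in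
theorem analyticAt_ιs (m : ℕ) (v : C.A m) : AnalyticAt ℂ (ιs c m v) 0 := by
  have h1 : AnalyticAt ℂ (fun x => c.ψ x (v : C.R)) (slL (0 : Fin n → ℂ)) := by
    rw [slL_apply, sl_zero]
    exact c.holo (v : C.R) _ (mem_ball_self c.ρ_pos)
  have h2 := AnalyticAt.comp h1 ((slL (n := n)).analyticAt 0)
  refine h2.congr (Eventually.of_forall fun z => ?_)
  show c.ψ (slL z) (v : C.R) = c.ψ (sl z) (v : C.R)
  rw [slL_apply]

/-- **Codimension of the order filtration.** -/
theorem finrank_le_so (m k : ℕ) : finrank ℂ (C.A m) ≤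
    ∑ i ∈ Finset.range k, mono n i + finrank ℂ (so φ m k) := by
  have h0 : fil (ιs c m) 0 = ⊤ := by rw [← so_eq_fil P c hc, so_zero]
  have h1 := sum_le (ιs c m) h0 (fun _ => 0) (fun k => ?_) k
  · rw [so_eq_fil P c hc]
    simpa using h1
  · show finrank ℂ (fil (ιs c m) k) + 0 ≤ mono n k + finrank ℂ (fil (ιs c m) (k + 1))
    rw [add_zero]
    have h2 := step_aux (ιs c m) k (MvPolynomial.homogeneousSubmodule (Fin n) ℂ k)
      fun v hv => exists_taylor (analyticAt_ιs c m v) hv
    rwa [finrank_homogeneous] at h2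

/-- **The count.** -/
theorem count (m K : ℕ) : (K : ℝ) * finrank ℂ (C.A m) ≤
    (ordW φ m).T + ((n + K).choose (n + 1) : ℝ) := by
  have h1 : ∀ k ∈ Finset.range K, finrank ℂ (C.A m) ≤
      ∑ i ∈ Finset.range (k + 1), mono n i + finrank ℂ (so φ m (k + 1)) :=
    fun k _ => finrank_le_so P c hc m (k + 1)
  have h2 := Finset.sum_le_sum h1
  rw [Finset.sum_add_distrib, sum_sum_mono, Finset.sum_const, Finset.card_range,
    smul_eq_mul] at h2
  have h3 := sum_so_le (φ := φ) m K
  have h4 : ((K * finrank ℂ (C.A m) : ℕ) : ℝ) ≤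
      (((n + K).choose (n + 1) + ∑ k ∈ Finset.range K, finrank ℂ (so φ m (k + 1)) : ℕ) : ℝ) := by
    exact_mod_cast h2
  push_cast at h4
  linarith

end chart

end fd

end Vale.Agent.P271.Uni
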