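import Vale.Agent.P271.Uni.Stat
import Vale.Agent.P271.Eq.Final
import Vale.Agent.P271.Eq.Sections
import Vale.Agent.P271.H84.DerC

/-!
# P271 / Uni / EqStat : the equality case in the form `EqStat` of Main/FreeInst
(helper972; all the mathematics is in helper35's Eq/*.lean and helper84's H84/DerC.lean)
-/

namespace Vale.Agent.P271.Uni

open Module Filter Topology Metric
open Vale.Agent.P271.Filt Vale.Agent.P271.Filt.Wt Vale.Agent.P271.Sch Vale.Agent.P271.H741
open Vale.Agent.P271.Eq Vale.Agent.P271.Exp Vale.Agent.P271.Inst Vale.Agent.P271.Chain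
open Vale.Agent.P271.Main Vale.Agent.P271.Drop Vale.Agent.P271.Deg

variable {n : ℕ} {C : GCone n}

theorem chainRule {z : C.Pt} (P : HParam C z) (c : Chart z (n + 1))
    (hc : ∀ j, c.t j = P.X j - algebraMap ℂ C.R (z (P.X j))) : ChainRule P c := by
  have hft := C.finiteType
  intro D s x hx
  exact H84.chain_rule (X := P.X) P.params (pt := c.ψ) (r := c.ρ) c.ρ_pos c.zero c.holo
    (fun x hx j => ψ_X P c hc hx j) D s hx

theorem exists_ders {z : C.Pt} (hz : GCone.NV z) (P : HParam C z) : Nonempty (Ders P) := by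
  obtain ⟨M₁, θ, h1, h2⟩ := H84.exists_der C hz (X := P.X) P.params
  exact ⟨⟨M₁, θ, h1, h2⟩⟩

variable [∀ k, FiniteDimensional ℂ (C.A k)]

/-- **`EqStat`.** -/
theorem eqStat (hG : GlobEnd) (hn : 1 ≤ n) (z : NVPt C) {m1 ell : ℕ} (hm1 : 1 ≤ m1)
    (hTS : TwoSided n (ell * m1 ^ n) (hilb (VA C m1) (⊥ : Ideal C.R))) : EqStat z m1 ell := by
  intro hell hos
  subst hell
  have hm0 : (0 : ℝ) < m1 := by exact_mod_cast hm1
  have hn0 : (0 : ℝ) < n := by exact_mod_cast hn
  obtain ⟨P, c, hc⟩ := exists_param z.2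
  obtain ⟨Δ⟩ := exists_ders z.2 P
  have hl : map (fun T : ℕ => m1 * T) atTop ≤ atTop :=
    tendsto_id.const_mul_atTop' (by omega)
  have hN : Tendsto (fun m : ℕ => (finrank ℂ (C.A m) : ℝ) / (m : ℝ) ^ n)
      (map (fun T : ℕ => m1 * T) atTop) (𝓝 (1 / (n.factorial : ℝ))) := by
    rw [tendsto_map'_iff]
    have h1 := (hTS.tendsto).div_const ((m1 : ℝ) ^ n)
    refine (h1.congr' ?_).trans (le_of_eq ?_)
    · filter_upwards with T
      simp only [Function.comp_apply]
      rw [hilb_bot']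
      push_cast
      rw [mul_pow, div_div, mul_comm]
    · congr 1
      push_cast
      field_simp
  have hT : ∀ ε : ℝ, 0 < ε → ∀ᶠ m in map (fun T : ℕ => m1 * T) atTop,
      ((∑ k ∈ Finset.range m, finrank ℂ (ordA z.1 m (k + 1)) : ℕ) : ℝ) ≤
        ((n : ℝ) / (n + 1) + ε) * (m * finrank ℂ (C.A m)) := by
    intro ε hε
    rw [eventually_map]
    obtain ⟨T₀, hT₀⟩ := hos ε hε
    filter_upwards [eventually_ge_atTop T₀] with T hT
    have h1 := hT₀ T hT
    have h2 := sum_ordA_le_os z.1 m1 T (m1 * T)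
    refine h2.trans (h1.trans (le_of_eq ?_))
    push_cast
    rfl
  set t : ℝ := ((n : ℝ) / (n + 1) + 1) / 2 with ht
  have hlt : (n : ℝ) / (n + 1) < 1 := by
    rw [div_lt_one (by positivity)]
    linarith
  have hpos : (0 : ℝ) < (n : ℝ) / (n + 1) := by positivity
  obtain ⟨m, hm, S, hS, hcut⟩ := eq_sections hn P c hc (chainRule P c hc) Δ hl hN hT
    (t := t) (by rw [ht]; linarith) (by rw [ht]; linarith)
  exact gen_of_sections hG hn z.2 P c hc (t := t) (by rw [ht]; linarith) hm S hS hcut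

end Vale.Agent.P271.Uni
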