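import Vale.Agent.P271.Uni.Slope
import Vale.Agent.P271.Eq.HParam
import Vale.Agent.P271.Main.CSys

/-!
# P271 / Uni / Main : the fields `uni` and `hos` of `FreeBlocks`
(helper972, row B5-UNI)
-/

namespace Vale.Agent.P271.Uni

open Module Filter Topology
open Vale.Agent.P271.Filt Vale.Agent.P271.Filt.Wt Vale.Agent.P271.Sch Vale.Agent.P271.H741
open Vale.Agent.P271.Eq Vale.Agent.P271.Exp Vale.Agent.P271.Inst Vale.Agent.P271.Chain
open Vale.Agent.P271.Main Vale.Agent.P271.Drop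

variable {n : ℕ} {C : GCone n} [∀ k, FiniteDimensional ℂ (C.A k)]

/-- The sum of the orders of vanishing at `z` on the level `T`. -/
noncomputable def os (z : C.Pt) (m1 T : ℕ) : ℝ := (ordW z (m1 * T)).T

omit [∀ k, FiniteDimensional ℂ (C.A k)] in
/-- Homogeneous parameters and a chart adapted to them. -/
theorem exists_param {z : C.Pt} (hz : GCone.NV z) : ∃ (P : HParam C z) (c : Chart z (n + 1)),
    ∀ j, c.t j = P.X j - algebraMap ℂ C.R (z (P.X j)) := by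
  obtain ⟨P⟩ := exists_hparam hz
  obtain ⟨c, hc⟩ := H879.cone_exists_chart_of_parameters' hz P.X P.params
  exact ⟨P, c, hc⟩

/-- **Field `uni`.** -/
theorem a_ordW_le (S : CSys C) (z : NVPt C) (m1 T : ℕ) :
    S.a z m1 T (ordW z.1 (m1 * T)) ≤ n := by
  obtain ⟨P, c, hc⟩ := exists_param z.2
  have h1 := vsl_ordW P c hc (m1 * T)
  rw [← S.P_ES z, ← S.P_eq z] at h1
  exact h1.vslope_le (S.E.isExp z).zero_mem

theorem dom_level (z : C.Pt) (m1 T : ℕ) : Dom (Hz C z m1 T) (ordW z (m1 * T)) :=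
  dom_ordW (m1 * T) fun s => by
    rw [Hz, LinearMap.mem_ker]
    rfl

/-- **Field `uni`.** -/
theorem uni (S : CSys C) (z : NVPt C) (m1 : ℕ) : ∃ T₀ : ℕ, ∀ T ≥ T₀, ∃ E : Wt ℂ (VA C m1 T),
    Dom (Hz C z.1 m1 T) E ∧ S.a z m1 T E ≤ n ∧ E.T = os z.1 m1 T :=
  ⟨0, fun T _ => ⟨ordW z.1 (m1 * T), dom_level z.1 m1 T, a_ordW_le S z m1 T, rfl⟩⟩

omit [∀ k, FiniteDimensional ℂ (C.A k)] in
theorem hilb_bot (M : ℕ) : hilb C.A (⊥ : Ideal C.R) M = finrank ℂ (C.A M) := by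
  have hinj : Function.Injective (Ideal.Quotient.mkₐ ℂ (⊥ : Ideal C.R)).toLinearMap := by
    rw [← LinearMap.ker_eq_bot, LinearMap.ker_eq_bot']
    intro x hx
    have h1 : Ideal.Quotient.mk (⊥ : Ideal C.R) x = 0 := hx
    rw [Ideal.Quotient.eq_zero_iff_mem] at h1
    exact (Submodule.mem_bot _).1 h1
  exact (LinearEquiv.finrank_eq (Submodule.equivMapOfInjective _ hinj (C.A M))).symm

/-- The count at the level `T`. -/
theorem os_count {z : C.Pt} (hz : GCone.NV z) (m1 T K : ℕ) :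
    (K : ℝ) * finrank ℂ (VA C m1 T) ≤ os z m1 T + ((n + K).choose (n + 1) : ℝ) := by
  obtain ⟨P, c, hc⟩ := exists_param hz
  exact count P c hc (m1 * T) K

/-- **Field `hos`.** -/
theorem hos {z : C.Pt} (hz : GCone.NV z) {m1 ell : ℕ} (hn : 1 ≤ n) (hell : 1 ≤ ell)
    (hm1 : 1 ≤ m1) (hN : Tendsto (fun M : ℕ => (hilb C.A (⊥ : Ideal C.R) M : ℝ) / (M : ℝ) ^ n)
      atTop (𝓝 ((ell : ℝ) / n.factorial))) :
    ∀ ε : ℝ, 0 < ε → ∃ T₀ : ℕ, ∀ T ≥ T₀,
      ((n : ℝ) / (n + 1) * (ell : ℝ) ^ ((1 : ℝ) / n) - ε) *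
        (m1 * T * finrank ℂ (VA C m1 T)) ≤ os z m1 T := by
  refine os_lower hn hell hm1 (fun T => (finrank ℂ (VA C m1 T) : ℝ)) (os z m1) ?_
    fun T K => os_count hz m1 T K
  have h1 : Tendsto (fun T : ℕ => m1 * T) atTop atTop :=
    tendsto_id.const_mul_atTop' (by omega)
  refine (hN.comp h1).congr fun T => ?_
  simp only [Function.comp_apply, hilb_bot]
  push_cast
  rfl

/-- Comparison with the sum in the equality case (helper35's `no_prime`). -/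
theorem sum_ordA_le_os (z : C.Pt) (m1 T K : ℕ) :
    ((∑ k ∈ Finset.range K, finrank ℂ (ordA z (m1 * T) (k + 1)) : ℕ) : ℝ) ≤ os z m1 T :=
  sum_ordA_le (m1 * T) K

end Vale.Agent.P271.Uni
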