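import Vale.Agent.P271.Uni.Ord
import Vale.Agent.P271.Inst.Dat
import Vale.Agent.P271.Inst.Hom
import Vale.Agent.P271.H604.OfDat
import Vale.Agent.P271.H604.Sys
import Vale.Agent.P271.H879.Cone

/-!
# P271 / Uni / Slope : the slope of the order filtration at `φ` is at most `n`
(helper972, row B5-UNI)
-/

namespace Vale.Agent.P271.Uni

open Module Filter Topology Asymptotics Metric MeasureTheory Set
open Vale.Agent.P271.Filt Vale.Agent.P271.Filt.Wt Vale.Agent.P271.Sch Vale.Agent.P271.H741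
open Vale.Agent.P271.Eq Vale.Agent.P271.Exp Vale.Agent.P271.Inst Vale.Agent.P271.Chain
open scoped Vale.Agent.P271.Inst ENNReal

variable {n : ℕ}

/-- the polydisc `|x₀| < e`, `|x_i| < r` -/
def pd (n : ℕ) (e r : ℝ) : Set (Fin (n + 1) → ℂ) :=
  Set.pi univ fun j => ball (0 : ℂ) ((Fin.cons e (fun _ => r) : Fin (n + 1) → ℝ) j)

theorem volume_pd {e r : ℝ} (he : 0 < e) (hr : 0 < r) :
    volume (pd n e r) = ENNReal.ofReal (e ^ 2 * Real.pi * (r ^ 2 * Real.pi) ^ n) := by
  have hb : ∀ s : ℝ, 0 < s → volume (ball (0 : ℂ) s) = ENNReal.ofReal (s ^ 2 * Real.pi) := by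
    intro s hs
    rw [Complex.volume_ball, ENNReal.ofReal_mul (by positivity), ENNReal.ofReal_pow hs.le]
    congr 1
    rw [← ENNReal.ofReal_coe_nnreal]
    rfl
  rw [pd, volume_pi_pi, Fin.prod_univ_succ]
  simp only [Fin.cons_zero, Fin.cons_succ, Finset.prod_const, Finset.card_univ, Fintype.card_fin]
  rw [hb e he, hb r hr, ← ENNReal.ofReal_pow (by positivity), ← ENNReal.ofReal_mul (by positivity)]

theorem pd_subset {e r : ℝ} (he : 0 < e) (hre : r ≤ e) : pd n e r ⊆ ball 0 e := by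
  intro x hx
  rw [pd, mem_univ_pi] at hx
  rw [mem_ball_zero_iff, pi_norm_lt_iff he]
  intro j
  have h := hx j
  rw [mem_ball_zero_iff] at h
  refine Fin.cases ?_ (fun i => ?_) j
  · have h0 := hx 0
    rwa [mem_ball_zero_iff, Fin.cons_zero] at h0
  · have h0 := hx i.succ
    rw [mem_ball_zero_iff, Fin.cons_succ] at h0
    exact h0.trans_le hre

theorem norm_tl_lt {e r : ℝ} (hr : 0 < r) {x : Fin (n + 1) → ℂ} (hx : x ∈ pd n e r) :
    ‖tl x‖ < r := by
  rw [pd, mem_univ_pi] at hx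
  rw [pi_norm_lt_iff hr]
  intro i
  have h0 := hx i.succ
  rwa [mem_ball_zero_iff, Fin.cons_succ] at h0

/-- A function of the size `‖(x₁, …, x_n)‖^{-2K}` is integrable near `0` only if `K ≤ n`. -/
theorem le_of_lint {F : (Fin (n + 1) → ℂ) → ℝ≥0∞} (hF : Zorn.LI volume (𝓝 0) F) {c0 K : ℝ}
    (h : ∀ᶠ x in 𝓝 (0 : Fin (n + 1) → ℂ) ⊓ ae volume, ∀ r : ℝ, 0 < r → ‖tl x‖ < r →
      ENNReal.ofReal (Real.exp (c0 - 2 * K * Real.log r)) ≤ F x) : K ≤ n := by
  by_contra hcon
  push Not at hcon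
  obtain ⟨U, hU, hlt⟩ := hF
  rw [Filter.eventually_inf] at h
  obtain ⟨V, hV, T, hT, hVT⟩ := h
  obtain ⟨e, he, hball⟩ := Metric.mem_nhds_iff.1 (inter_mem hU hV)
  set I := ∫⁻ x in U, F x with hI
  -- the estimate on the polydiscs
  have key : ∀ r : ℝ, 0 < r → r ≤ e → Real.exp (c0 - 2 * K * Real.log r) *
      (e ^ 2 * Real.pi * (r ^ 2 * Real.pi) ^ n) ≤ I.toReal := by
    intro r hr hre
    have hsub : pd n e r ⊆ U ∩ V := (pd_subset he hre).trans hball
    have h1 : ENNReal.ofReal (Real.exp (c0 - 2 * K * Real.log r)) * volume (pd n e r) ≤ I := by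
      calc ENNReal.ofReal (Real.exp (c0 - 2 * K * Real.log r)) * volume (pd n e r)
          = ∫⁻ _ in pd n e r, ENNReal.ofReal (Real.exp (c0 - 2 * K * Real.log r)) := by
            rw [setLIntegral_const]
        _ ≤ ∫⁻ x in pd n e r, F x := by
            refine lintegral_mono_ae ?_
            have hmeas : MeasurableSet (pd n e r) :=
              MeasurableSet.univ_pi fun _ => isOpen_ball.measurableSet
            refine (ae_restrict_iff' hmeas).2 ?_
            filter_upwards [hT] with x hxT hx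
            exact hVT x ⟨(hsub hx).2, hxT⟩ r hr (norm_tl_lt hr hx)
        _ ≤ I := lintegral_mono_set (hsub.trans inter_subset_left)
    rw [volume_pd he hr, ← ENNReal.ofReal_mul (Real.exp_pos _).le] at h1
    have h2 := ENNReal.toReal_mono hlt.ne h1
    rwa [ENNReal.toReal_ofReal (by positivity)] at h2
  -- let `r = exp (-s)`
  set a : ℝ := e ^ 2 * Real.pi * Real.pi ^ n * Real.exp c0 with ha
  have ha0 : 0 < a := by positivity
  have hd : 0 < K - n := by linarith
  obtain ⟨s, hs1, hs2⟩ : ∃ s : ℝ, -Real.log e ≤ s ∧ I.toReal < a * (1 + 2 * (K - n) * s) := by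
    refine ⟨max (-Real.log e) (I.toReal / (a * (2 * (K - n)))), le_max_left _ _, ?_⟩
    have h3 := le_max_right (-Real.log e) (I.toReal / (a * (2 * (K - n))))
    have h4 : I.toReal = a * (2 * (K - n)) * (I.toReal / (a * (2 * (K - n)))) := by
      field_simp
    have h5 := mul_le_mul_of_nonneg_left h3 (mul_pos ha0 (mul_pos two_pos hd)).le
    rw [← h4] at h5
    linarith
  have hr0 : 0 < Real.exp (-s) := Real.exp_pos _
  have hre : Real.exp (-s) ≤ e := by
    rw [← Real.le_log_iff_exp_le he]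
    linarith
  have h6 := key _ hr0 hre
  rw [Real.log_exp] at h6
  have h7 : Real.exp (c0 - 2 * K * -s) * (e ^ 2 * Real.pi * ((Real.exp (-s)) ^ 2 * Real.pi) ^ n) =
      a * Real.exp (2 * (K - n) * s) := by
    have h8 : ((Real.exp (-s)) ^ 2 * Real.pi) ^ n = Real.exp (-(2 * n * s)) * Real.pi ^ n := by
      rw [mul_pow, ← pow_mul, ← Real.exp_nat_mul]
      congr 2
      push_cast
      ring
    rw [h8, ha, show c0 - 2 * K * -s = c0 + 2 * K * s by ring,
      show 2 * (K - n) * s = 2 * K * s + -(2 * n * s) by ring, Real.exp_add, Real.exp_add]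
    ring
  rw [h7] at h6
  have h9 : 1 + 2 * (K - n) * s ≤ Real.exp (2 * (K - n) * s) := by
    have := Real.add_one_le_exp (2 * (K - n) * s)
    linarith
  have h10 := mul_le_mul_of_nonneg_left h9 ha0.le
  linarith

variable {C : GCone n} {φ : C.Pt}

/-- Elements of order `≥ k` are small along the orbit. -/
theorem exists_bound (P : HParam C φ) (c : Chart φ (n + 1))
    (hc : ∀ j, c.t j = P.X j - algebraMap ℂ C.R (φ (P.X j))) {m k : ℕ} {s : C.R} (hs : s ∈ C.A m)
    (hk : s ∈ pI φ ^ k) : ∃ B : ℝ, 0 < B ∧ ∀ᶠ x in 𝓝 (0 : Fin (n + 1) → ℂ),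
      ‖c.ψ x s‖ ≤ B * ‖tl x‖ ^ k := by
  have h1 := isBigO_tl P c hc hs (isBigO_slice c (isBigO_of_mem_pow c hk))
  obtain ⟨B, hB, h2⟩ := h1.exists_pos
  refine ⟨B, hB, ?_⟩
  filter_upwards [h2.bound] with x hx
  rwa [Real.norm_of_nonneg (by positivity)] at hx

/-- **The slope of `ord_φ` at `φ` is at most `n`.** -/
theorem vsl_ordW (P : HParam C φ) (c : Chart φ (n + 1))
    (hc : ∀ j, c.t j = P.X j - algebraMap ℂ C.R (φ (P.X j))) (m : ℕ)
    [∀ m, FiniteDimensional ℂ (C.A m)] :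
    VSl (extP (HM C) (ES (n + 1) (fun f : HM C => (f : C.R)) φ)) (C.A m).subtype
      (ordW φ m).w n := by
  classical
  have hfin : Algebra.FiniteType ℂ C.R := C.finiteType
  intro k hk hm
  obtain ⟨k', hk', hkk⟩ := mem_extP_iff.1 hm
  rw [ES_eq_PP c] at hk'
  have hlg : ∀ x, Zorn.lg (fun (f : HM C) x => c.ψ x (f : C.R)) k' x =
      ∑ s ∈ k.support, k s * Real.log ‖c.ψ x (s : C.R)‖ := by
    intro x
    have h1 : Zorn.lg (fun (f : HM C) x => c.ψ x (f : C.R)) k' x =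
        dot k' (fun f => Real.log ‖c.ψ x (f : C.R)‖) := rfl
    have h2 := dot_mapDomain (fun f : HM C => (f : C.R)) k' (fun g => Real.log ‖c.ψ x g‖)
    have h3 := dot_mapDomain ((C.A m).subtype) k (fun g => Real.log ‖c.ψ x g‖)
    rw [h1, ← h2, hkk, h3]
    rfl
  have hne : ∀ s ∈ k.support, (s : C.R) ≠ 0 := by
    intro s hs h0
    have h1 : ((k.mapDomain ((C.A m).subtype)) : C.R →₀ ℝ) ((C.A m).subtype s) = k s :=
      Finsupp.mapDomain_apply (Submodule.injective_subtype _) k s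
    have h2 : (C.A m).subtype s ∈ (k.mapDomain ((C.A m).subtype)).support := by
      rw [Finsupp.mem_support_iff, h1]
      exact Finsupp.mem_support_iff.1 hs
    exact (mem_HM.1 (hm.1 _ h2)).1 h0
  have hB : ∀ s : C.A m, ∃ B : ℝ, 0 < B ∧ ∀ᶠ x in 𝓝 (0 : Fin (n + 1) → ℂ),
      ‖c.ψ x (s : C.R)‖ ≤ B * ‖tl x‖ ^ ((ordF φ m).ord s) := fun s =>
    exists_bound P c hc s.2 ((ordF φ m).mem_ord s)
  choose B hB0 hBx using hB
  have hev : ∀ᶠ x in 𝓝 (0 : Fin (n + 1) → ℂ) ⊓ ae volume, ∀ s ∈ k.support,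
      c.ψ x (s : C.R) ≠ 0 ∧ ‖c.ψ x (s : C.R)‖ ≤ B s * ‖tl x‖ ^ ((ordF φ m).ord s) := by
    rw [Filter.eventually_all_finset]
    intro s hs
    exact (eventually_ae_ne (c.holo (s : C.R) 0 c.mem0) (nz_chart c (hne s hs))).and
      ((hBx s).filter_mono inf_le_left)
  refine le_of_lint (c0 := -2 * ∑ s ∈ k.support, k s * Real.log (B s)) hk' ?_
  filter_upwards [hev] with x hx r hr hxr
  rw [Zorn.wt, hlg]
  refine ENNReal.ofReal_le_ofReal (Real.exp_le_exp.2 ?_)
  have h1 : ∑ s ∈ k.support, k s * Real.log ‖c.ψ x (s : C.R)‖ ≤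
      ∑ s ∈ k.support, (k s * Real.log (B s) + k s * (ordW φ m).w s * Real.log r) := by
    refine Finset.sum_le_sum fun s hs => ?_
    obtain ⟨hs0, hs1⟩ := hx s hs
    have h2 : ‖c.ψ x (s : C.R)‖ ≤ B s * r ^ ((ordF φ m).ord s) :=
      hs1.trans (mul_le_mul_of_nonneg_left (pow_le_pow_left₀ (norm_nonneg _) hxr.le _) (hB0 s).le)
    have h3 := Real.log_le_log (norm_pos_iff.2 hs0) h2
    rw [Real.log_mul (hB0 s).ne' (pow_pos hr _).ne', Real.log_pow] at h3
    have h4 := mul_le_mul_of_nonneg_left h3 (hk s)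
    refine h4.trans (le_of_eq ?_)
    show _ = k s * Real.log (B s) + k s * ((ordF φ m).ord s : ℝ) * Real.log r
    ring
  rw [Finset.sum_add_distrib, ← Finset.sum_mul] at h1
  have h2 : dot k (ordW φ m).w = ∑ s ∈ k.support, k s * (ordW φ m).w s := rfl
  rw [h2]
  linarith

/-- `ord_φ` vanishes outside the sections that vanish at `φ`. -/
theorem dom_ordW (m : ℕ) [∀ m, FiniteDimensional ℂ (C.A m)] {H : Submodule ℂ (C.A m)}
    (hH : ∀ s : C.A m, s ∈ H ↔ φ (s : C.R) = 0) : Dom H (ordW φ m) where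
  nonneg x _ := (ordF φ m).wt_nonneg x
  zero x hx := by
    show ((ordF φ m).ord x : ℝ) = 0
    rw [Nat.cast_eq_zero]
    by_contra h0
    apply hx
    rw [hH]
    have h1 : x ∈ so φ m 1 := so_anti φ m (Nat.one_le_iff_ne_zero.2 h0) ((ordF φ m).mem_ord x)
    rw [mem_so, pow_one] at h1
    exact h1

end Vale.Agent.P271.Uni
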