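import Vale.Agent.P271.Filt.Joint
import Vale.Agent.P271.Filt.OfBasis
import Vale.Agent.P271.Chain.Metric
import Vale.Agent.P271.Eq.Codef
import Vale.Agent.P271.Eq.Local

/-!
# P271 / Uni / Space : filtrations indexed by natural numbers as weight functions; the filtration
by the order of vanishing of functions of `n` variables (helper972, row B5-UNI)
-/

namespace Vale.Agent.P271.Uni

open Module Vale.Agent.P271.Filt Vale.Agent.P271.Filt.Wt

section nat

variable {K : Type*} {V : Type*} [Field K] [AddCommGroup V] [Module K V]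

/-- A decreasing, exhaustive, separated filtration indexed by `ℕ`. -/
structure NFil (K : Type*) (V : Type*) [Field K] [AddCommGroup V] [Module K V] where
  /-- the steps -/
  s : ℕ → Submodule K V
  anti : Antitone s
  zero : s 0 = ⊤
  /-- a level at which the filtration is zero -/
  top : ℕ
  bot : s top = ⊥

namespace NFil

variable (F : NFil K V)

open Classical in
/-- the order of a vector -/
noncomputable def ord (x : V) : ℕ := Nat.findGreatest (fun k => x ∈ F.s k) F.top

theorem mem_ord (x : V) : x ∈ F.s (F.ord x) := by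
  classical
  unfold ord
  refine Nat.findGreatest_spec (P := fun k => x ∈ F.s k) (Nat.zero_le _) ?_
  rw [F.zero]
  exact Submodule.mem_top

theorem lt_top {x : V} (hx : x ≠ 0) {k : ℕ} (h : x ∈ F.s k) : k < F.top := by
  by_contra hcon
  push Not at hcon
  have := F.anti hcon h
  rw [F.bot] at this
  exact hx this

theorem mem_iff {x : V} (hx : x ≠ 0) {k : ℕ} : x ∈ F.s k ↔ k ≤ F.ord x := by
  classical
  constructor
  · intro h
    exact Nat.le_findGreatest (F.lt_top hx h).le h
  · intro h
    exact F.anti h (F.mem_ord x)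

/-- the weight function -/
noncomputable def wt : Wt K V where
  w x := F.ord x
  smul_le' c x hc hx := by
    have h : c • x ∈ F.s (F.ord x) := Submodule.smul_mem _ _ (F.mem_ord x)
    exact_mod_cast (F.mem_iff (smul_ne_zero hc hx)).1 h
  add' x y hx hy hxy := by
    have h1 : x ∈ F.s (min (F.ord x) (F.ord y)) := F.anti (min_le_left _ _) (F.mem_ord x)
    have h2 : y ∈ F.s (min (F.ord x) (F.ord y)) := F.anti (min_le_right _ _) (F.mem_ord y)
    have h3 := (F.mem_iff hxy).1 (Submodule.add_mem _ h1 h2)
    exact_mod_cast h3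

@[simp] theorem wt_w (x : V) : F.wt.w x = F.ord x := rfl

theorem wt_sub (k : ℕ) : F.wt.sub k = F.s k := by
  ext x
  by_cases hx : x = 0
  · subst hx
    simp
  · rw [mem_sub_of_ne _ hx, wt_w, F.mem_iff hx]
    exact_mod_cast Iff.rfl

theorem wt_nonneg (x : V) : 0 ≤ F.wt.w x := by
  rw [wt_w]; positivity

theorem wt_lt_top {x : V} (hx : x ≠ 0) : F.wt.w x < F.top := by
  rw [wt_w]
  exact_mod_cast F.lt_top hx (F.mem_ord x)

/-- the total weight is the sum of the dimensions of the steps -/
theorem wt_T [FiniteDimensional K V] :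
    F.wt.T = ∑ k ∈ Finset.range F.top, (finrank K (F.s (k + 1)) : ℝ) := by
  classical
  have hb := F.wt.adapted_adb
  rw [← hb.sum_eq]
  have h1 : ∀ k : ℕ, (finrank K (F.s (k + 1)) : ℝ) =
      ∑ i, if k + 1 ≤ F.ord (F.wt.adb i) then (1 : ℝ) else 0 := by
    intro k
    have h2 : finrank K (F.s (k + 1)) =
        (Finset.univ.filter fun i => k + 1 ≤ F.ord (F.wt.adb i)).card := by
      have h3 := hb.sub_eq_span ((k + 1 : ℕ) : ℝ)
      rw [F.wt_sub] at h3
      rw [h3]
      have h4 : (F.wt.adb '' {i | (((k + 1 : ℕ) : ℝ)) ≤ F.wt.w (F.wt.adb i)})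
          = Set.range (⇑F.wt.adb ∘
            (Subtype.val : {i // k + 1 ≤ F.ord (F.wt.adb i)} → _)) := by
        ext x
        constructor
        · rintro ⟨i, hi, rfl⟩
          have hi' : (((k + 1 : ℕ) : ℝ)) ≤ (F.ord (F.wt.adb i) : ℝ) := hi
          exact ⟨⟨i, by exact_mod_cast hi'⟩, rfl⟩
        · rintro ⟨i, rfl⟩
          refine ⟨i.1, ?_, rfl⟩
          show (((k + 1 : ℕ) : ℝ)) ≤ (F.ord (F.wt.adb i.1) : ℝ)
          exact_mod_cast i.2
      rw [h4, finrank_span_eq_card (F.wt.adb.linearIndependent.comp _ Subtype.val_injective),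
        Fintype.card_subtype]
    rw [h2, Finset.card_filter]
    push_cast
    rfl
  simp_rw [h1]
  rw [Finset.sum_comm]
  refine Finset.sum_congr rfl fun i _ => ?_
  rw [wt_w, Finset.sum_ite, Finset.sum_const_zero, add_zero, Finset.sum_const, nsmul_eq_mul,
    mul_one]
  have hne : F.wt.adb i ≠ 0 := F.wt.adb.ne_zero i
  have hlt : F.ord (F.wt.adb i) < F.top := F.lt_top hne (F.mem_ord _)
  have h6 : (Finset.range F.top).filter (fun k => k + 1 ≤ F.ord (F.wt.adb i))
      = Finset.range (F.ord (F.wt.adb i)) := by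
    ext k
    simp only [Finset.mem_filter, Finset.mem_range]
    omega
  rw [h6, Finset.card_range]

end NFil

end nat

end Vale.Agent.P271.Uni
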