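import Vale.Agent.P271.Uni.Main
import Vale.Agent.P271.Main.FreeInst

/-!
# P271 / Uni / Stat : `UniStat` and `OsStat` of Main/FreeInst (helper972)
-/

namespace Vale.Agent.P271.Uni

open Module Filter Topology
open Vale.Agent.P271.Filt Vale.Agent.P271.Filt.Wt Vale.Agent.P271.Sch Vale.Agent.P271.H741
open Vale.Agent.P271.Eq Vale.Agent.P271.Exp Vale.Agent.P271.Inst Vale.Agent.P271.Chain
open Vale.Agent.P271.Main Vale.Agent.P271.Drop Vale.Agent.P271.Deg

variable {n : ℕ} {C : GCone n} [∀ k, FiniteDimensional ℂ (C.A k)]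

/-- **`UniStat`**, for every exponent system. -/
theorem uniStat (Sy : CSys C) (z : NVPt C) (m1 : ℕ) : UniStat Sy z m1 := uni Sy z m1

omit [∀ k, FiniteDimensional ℂ (C.A k)] in
theorem hilb_bot' (m1 T : ℕ) : hilb (VA C m1) (⊥ : Ideal C.R) T = finrank ℂ (VA C m1 T) :=
  hilb_bot (m1 * T)

/-- **`OsStat`**. -/
theorem osStat (hn : 1 ≤ n) (z : NVPt C) {m1 ell : ℕ} (hm1 : 1 ≤ m1) (hell : 1 ≤ ell)
    (hTS : TwoSided n (ell * m1 ^ n) (hilb (VA C m1) (⊥ : Ideal C.R))) : OsStat z m1 ell := by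
  have h := os_lower' hn hell hm1 (hilb (VA C m1) (⊥ : Ideal C.R)) (os z.1 m1) hTS
    (fun T K => by rw [hilb_bot']; exact os_count z.2 m1 T K)
  intro ε hε
  obtain ⟨T₀, hT₀⟩ := h ε hε
  refine ⟨T₀, fun T hT => ?_⟩
  have h1 := hT₀ T hT
  rw [hilb_bot'] at h1
  exact h1

end Vale.Agent.P271.Uni
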